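import Mathlib

namespace Vale.Agent.Results.P110.FlatnessGap

open Polynomial Finset

private noncomputable def sp (n : ℕ) (e : ℕ → ℤ) : ℤ[X] :=
  ∑ k ∈ range (n + 1), C (e k) * X ^ k

private noncomputable def rp (n : ℕ) (e : ℕ → ℤ) : ℤ[X] :=
  ∑ k ∈ range (n + 1), C (e (n - k)) * X ^ k

private lemma coeff_sp (n : ℕ) (e : ℕ → ℤ) (m : ℕ) :
    (sp n e).coeff m = if m < n + 1 then e m else 0 := by
  simp only [sp, finsetSum_coeff, coeff_C_mul, coeff_X_pow]
  simp [Finset.sum_ite_eq]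

private lemma coeff_rp (n : ℕ) (e : ℕ → ℤ) (m : ℕ) :
    (rp n e).coeff m = if m < n + 1 then e (n - m) else 0 := by
  simp only [rp, finsetSum_coeff, coeff_C_mul, coeff_X_pow]
  simp [Finset.sum_ite_eq]

private lemma coeff_mid (n : ℕ) (e : ℕ → ℤ) (he : ∀ k, e k = 1 ∨ e k = -1) :
    (sp n e * rp n e).coeff n = (n : ℤ) + 1 := by
  rw [coeff_mul, Finset.Nat.sum_antidiagonal_eq_sum_range_succ
    (fun i j => (sp n e).coeff i * (rp n e).coeff j) n]
  have : ∀ k ∈ range n.succ, (sp n e).coeff k * (rp n e).coeff (n - k) = 1 := by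
    intro k hk
    have hk' : k < n + 1 := by simpa using hk
    have h2 : n - k < n + 1 := by omega
    have h3 : n - (n - k) = k := by omega
    rw [coeff_sp, coeff_rp, if_pos hk', if_pos h2, h3]
    rcases he k with h | h <;> simp [h]
  rw [Finset.sum_congr rfl this]
  simp

private lemma map_sp (n : ℕ) (e : ℕ → ℤ) (he : ∀ k, e k = 1 ∨ e k = -1) :
    (sp n e).map (Int.castRingHom (ZMod 2)) = ∑ k ∈ range (n + 1), (X : (ZMod 2)[X]) ^ k := by
  simp only [sp, Polynomial.map_sum, Polynomial.map_mul, Polynomial.map_C, Polynomial.map_pow,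
    Polynomial.map_X]
  refine Finset.sum_congr rfl (fun k _ => ?_)
  rcases he k with h | h <;> simp [h]

private lemma map_rp (n : ℕ) (e : ℕ → ℤ) (he : ∀ k, e k = 1 ∨ e k = -1) :
    (rp n e).map (Int.castRingHom (ZMod 2)) = ∑ k ∈ range (n + 1), (X : (ZMod 2)[X]) ^ k := by
  simp only [rp, Polynomial.map_sum, Polynomial.map_mul, Polynomial.map_C, Polynomial.map_pow,
    Polynomial.map_X]
  refine Finset.sum_congr rfl (fun k _ => ?_)
  rcases he (n - k) with h | h <;> simp [h]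

private lemma coeff_even_ne (n : ℕ) (e : ℕ → ℤ) (he : ∀ k, e k = 1 ∨ e k = -1) (k : ℕ)
    (hk : k < n + 1) : (sp n e * rp n e).coeff (2 * k) ≠ 0 := by
  intro h0
  have h1 : ((sp n e * rp n e).map (Int.castRingHom (ZMod 2))).coeff (2 * k) = 0 := by
    rw [coeff_map, h0]; simp
  rw [Polynomial.map_mul, map_sp n e he, map_rp n e he, ← sq, sum_pow_char 2] at h1
  rw [finsetSum_coeff] at h1
  rw [Finset.sum_eq_single k] at h1
  · simp [← pow_mul, coeff_X_pow, mul_comm] at h1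
  · intro j _ hj
    rw [← pow_mul, coeff_X_pow, if_neg]
    omega
  · intro hk'
    exact absurd (Finset.mem_range.mpr hk) hk'


private lemma count_even (n : ℕ) :
    ∑ m ∈ range (2 * n + 1), (if m % 2 = 0 then (1 : ℤ) else 0) = (n : ℤ) + 1 := by
  induction n with
  | zero => decide
  | succ n ih =>
    have h : 2 * (n + 1) + 1 = (2 * n + 1) + 1 + 1 := by ring
    rw [h, Finset.sum_range_succ, Finset.sum_range_succ, ih]
    have h1 : (2 * n + 1) % 2 = 1 := by omega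
    have h2 : (2 * n + 1 + 1) % 2 = 0 := by omega
    simp [h1, h2]

private lemma sum_sq_lower (n : ℕ) (e : ℕ → ℤ) (he : ∀ k, e k = 1 ∨ e k = -1) :
    ((n : ℤ) + 1) ^ 2 + n ≤ ∑ m ∈ range (2 * n + 1), ((sp n e * rp n e).coeff m) ^ 2 := by
  have hterm : ∀ m ∈ range (2 * n + 1),
      (if m = n then (((n : ℤ) + 1) ^ 2 - 1) else 0) + (if m % 2 = 0 then (1 : ℤ) else 0)
        ≤ ((sp n e * rp n e).coeff m) ^ 2 := by
    intro m hm
    have hm' : m < 2 * n + 1 := by simpa using hm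
    by_cases hmn : m = n
    · subst hmn
      rw [coeff_mid m e he, if_pos rfl]
      split_ifs <;> linarith
    · rw [if_neg hmn]
      by_cases hev : m % 2 = 0
      · rw [if_pos hev]
        have hk : m = 2 * (m / 2) := by omega
        have hne := coeff_even_ne n e he (m / 2) (by omega)
        rw [← hk] at hne
        have : 0 < ((sp n e * rp n e).coeff m) ^ 2 := by positivity
        linarith
      · rw [if_neg hev]
        have : 0 ≤ ((sp n e * rp n e).coeff m) ^ 2 := by positivity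
        linarith
  calc ((n : ℤ) + 1) ^ 2 + n
      = ∑ m ∈ range (2 * n + 1), ((if m = n then (((n : ℤ) + 1) ^ 2 - 1) else 0)
          + (if m % 2 = 0 then (1 : ℤ) else 0)) := by
        rw [Finset.sum_add_distrib, count_even, Finset.sum_ite_eq' (range (2 * n + 1)) n,
          if_pos (by simp; omega)]
        ring
    _ ≤ _ := Finset.sum_le_sum hterm


private noncomputable def pc (n : ℕ) (e : ℕ → ℤ) : ℂ[X] := (sp n e).map (Int.castRingHom ℂ)

private noncomputable def rc (n : ℕ) (e : ℕ → ℤ) : ℂ[X] := (rp n e).map (Int.castRingHom ℂ)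

private lemma eval_pc (n : ℕ) (e : ℕ → ℤ) (z : ℂ) :
    eval z (pc n e) = ∑ k ∈ range (n + 1), (e k : ℂ) * z ^ k := by
  simp [pc, sp, Polynomial.map_sum, eval_finsetSum]

private lemma eval_rc (n : ℕ) (e : ℕ → ℤ) (z : ℂ) :
    eval z (rc n e) = ∑ k ∈ range (n + 1), (e (n - k) : ℂ) * z ^ k := by
  simp [rc, rp, Polynomial.map_sum, eval_finsetSum]

private lemma norm_rc (n : ℕ) (e : ℕ → ℤ) (z : ℂ) (hz : ‖z‖ = 1) :
    ‖eval z (rc n e)‖ = ‖eval z (pc n e)‖ := by
  have hzz : z * (starRingEnd ℂ) z = 1 := by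
    rw [Complex.mul_conj, Complex.normSq_eq_norm_sq, hz]; simp
  have key : eval z (pc n e) = z ^ n * (starRingEnd ℂ) (eval z (rc n e)) := by
    rw [eval_pc, eval_rc, map_sum, Finset.mul_sum]
    rw [← Finset.sum_range_reflect (fun j => (e j : ℂ) * z ^ j) (n + 1)]
    refine Finset.sum_congr rfl (fun k hk => ?_)
    have hk' : k ≤ n := by
      have := Finset.mem_range.mp hk
      omega
    have h1 : n + 1 - 1 - k = n - k := by omega
    have h2 : z ^ n = z ^ (n - k) * z ^ k := by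
      rw [← pow_add]; congr 1; omega
    simp only [map_mul, map_pow, map_intCast, h1]
    rw [h2]
    calc (e (n - k) : ℂ) * z ^ (n - k)
        = (e (n - k) : ℂ) * z ^ (n - k) * (z * (starRingEnd ℂ) z) ^ k := by
          rw [hzz, one_pow, mul_one]
      _ = z ^ (n - k) * z ^ k * ((e (n - k) : ℂ) * (starRingEnd ℂ) z ^ k) := by
          rw [mul_pow]; ring
  rw [key, norm_mul, norm_pow, hz, one_pow, one_mul, RCLike.norm_conj]


private lemma avg_one (n : ℕ) (e : ℕ → ℤ) (he : ∀ k, e k = 1 ∨ e k = -1) :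
    Real.circleAverage (fun z => ‖eval z (pc n e)‖ ^ 2) 0 1 = (n : ℝ) + 1 := by
  rw [← Polynomial.sum_sq_norm_coeff_eq_circleAverage]
  have hc : ∀ i, (pc n e).coeff i = if i < n + 1 then (e i : ℂ) else 0 := by
    intro i
    rw [pc, coeff_map, coeff_sp]
    split_ifs <;> simp
  rw [Finset.sum_subset (s₂ := range (n + 1))]
  · rw [Finset.sum_congr rfl (g := fun _ => (1 : ℝ))]
    · simp
    · intro i hi
      rw [hc i, if_pos (Finset.mem_range.mp hi)]
      rcases he i with h | h <;> simp [h]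
  · intro i hi
    rw [Polynomial.mem_support_iff, hc i] at hi
    by_contra hcon
    apply hi
    rw [if_neg (by simpa using hcon)]
  · intro i _ hi
    rw [Polynomial.notMem_support_iff] at hi
    simp [hi]

private lemma avg_two (n : ℕ) (e : ℕ → ℤ) (he : ∀ k, e k = 1 ∨ e k = -1) :
    ((n : ℝ) + 1) ^ 2 + n ≤ Real.circleAverage (fun z => (‖eval z (pc n e)‖ ^ 2) ^ 2) 0 1 := by
  have hcongr : Real.circleAverage (fun z => (‖eval z (pc n e)‖ ^ 2) ^ 2) 0 1
      = Real.circleAverage (fun z => ‖eval z (pc n e * rc n e)‖ ^ 2) 0 1 := by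
    apply Real.circleAverage_congr_sphere
    intro z hz
    have hz1 : ‖z‖ = 1 := by simpa using hz
    simp only [eval_mul, norm_mul, norm_rc n e z hz1]
    ring
  rw [hcongr, ← Polynomial.sum_sq_norm_coeff_eq_circleAverage]
  have hQ : pc n e * rc n e = (sp n e * rp n e).map (Int.castRingHom ℂ) := by
    rw [pc, rc, Polynomial.map_mul]
  have hc : ∀ i, ‖(pc n e * rc n e).coeff i‖ ^ 2
      = ((((sp n e * rp n e).coeff i) ^ 2 : ℤ) : ℝ) := by
    intro i
    rw [hQ, coeff_map]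
    simp
  calc ((n : ℝ) + 1) ^ 2 + n = ((((n : ℤ) + 1) ^ 2 + n : ℤ) : ℝ) := by push_cast; ring
    _ ≤ ((∑ m ∈ range (2 * n + 1), ((sp n e * rp n e).coeff m) ^ 2 : ℤ) : ℝ) := by
        exact_mod_cast sum_sq_lower n e he
    _ = ∑ m ∈ range (2 * n + 1), ‖(pc n e * rc n e).coeff m‖ ^ 2 := by
        rw [Int.cast_sum]
        exact Finset.sum_congr rfl (fun i _ => (hc i).symm)
    _ = ∑ m ∈ range (2 * n + 1) ∩ (pc n e * rc n e).support,
          ‖(pc n e * rc n e).coeff m‖ ^ 2 := by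
        symm
        apply Finset.sum_subset Finset.inter_subset_left
        intro i hi hni
        have : i ∉ (pc n e * rc n e).support := fun h => hni (Finset.mem_inter.mpr ⟨hi, h⟩)
        rw [Polynomial.notMem_support_iff] at this
        simp [this]
    _ ≤ ∑ m ∈ (pc n e * rc n e).support, ‖(pc n e * rc n e).coeff m‖ ^ 2 := by
        apply Finset.sum_le_sum_of_subset_of_nonneg Finset.inter_subset_right
        intro i _ _; positivity

private theorem core (n : ℕ) (e : ℕ → ℤ) (he : ∀ k, e k = 1 ∨ e k = -1) (a b : ℝ)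
    (hab : ∀ z : ℂ, ‖z‖ = 1 → a ≤ ‖eval z (pc n e)‖ ^ 2 ∧ ‖eval z (pc n e)‖ ^ 2 ≤ b) :
    (n : ℝ) ≤ (b - (n + 1)) * ((n + 1) - a) := by
  have hcu : Continuous (fun z : ℂ => ‖eval z (pc n e)‖ ^ 2) :=
    ((pc n e).continuous.norm).pow 2
  have hcu2 : Continuous (fun z : ℂ => (‖eval z (pc n e)‖ ^ 2) ^ 2) := hcu.pow 2
  have h1 := avg_one n e he
  have h2 := avg_two n e he
  have h3 : 0 ≤ Real.circleAverage
      (fun z => (a + b) * ‖eval z (pc n e)‖ ^ 2 - (‖eval z (pc n e)‖ ^ 2) ^ 2 - a * b) 0 1 := by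
    apply Real.circleAverage_nonneg_of_nonneg
    intro z hz
    have hz1 : ‖z‖ = 1 := by simpa using hz
    obtain ⟨ha, hb⟩ := hab z hz1
    nlinarith [mul_nonneg (sub_nonneg.mpr ha) (sub_nonneg.mpr hb)]
  have h4 : Real.circleAverage
      (fun z => (a + b) * ‖eval z (pc n e)‖ ^ 2 - (‖eval z (pc n e)‖ ^ 2) ^ 2 - a * b) 0 1
      = (a + b) * Real.circleAverage (fun z => ‖eval z (pc n e)‖ ^ 2) 0 1
        - Real.circleAverage (fun z => (‖eval z (pc n e)‖ ^ 2) ^ 2) 0 1 - a * b := by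
    rw [Real.circleAverage_fun_sub
        (f₁ := fun z => (a + b) * ‖eval z (pc n e)‖ ^ 2 - (‖eval z (pc n e)‖ ^ 2) ^ 2)
        (f₂ := fun _ => a * b)
        ((continuous_const.mul hcu).sub hcu2).continuousOn.circleIntegrable'
        continuous_const.continuousOn.circleIntegrable',
      Real.circleAverage_fun_sub
        (f₁ := fun z => (a + b) * ‖eval z (pc n e)‖ ^ 2)
        (f₂ := fun z => (‖eval z (pc n e)‖ ^ 2) ^ 2)
        (continuous_const.mul hcu).continuousOn.circleIntegrable'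
        hcu2.continuousOn.circleIntegrable',
      Real.circleAverage_const]
    congr 2
    exact Real.circleAverage_fun_smul (a := a + b) (f := fun z => ‖eval z (pc n e)‖ ^ 2)
  rw [h4, h1] at h3
  nlinarith


private theorem core' (N : ℕ) (hN : 1 ≤ N) (ε : ℕ → ℝ) (hε : ∀ k < N, ε k = 1 ∨ ε k = -1)
    (a b : ℝ)
    (hab : ∀ z : ℂ, ‖z‖ = 1 →
      a ≤ ‖∑ k ∈ Finset.range N, (ε k : ℂ) * z ^ k‖ ^ 2 ∧
      ‖∑ k ∈ Finset.range N, (ε k : ℂ) * z ^ k‖ ^ 2 ≤ b) :
    (N : ℝ) - 1 ≤ (b - N) * (N - a) := by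
  obtain ⟨n, rfl⟩ : ∃ n, N = n + 1 := ⟨N - 1, by omega⟩
  set e : ℕ → ℤ := fun k => if ε k = -1 then -1 else 1 with he_def
  have he : ∀ k, e k = 1 ∨ e k = -1 := by
    intro k
    by_cases h : ε k = -1
    · right; simp [he_def, h]
    · left; simp [he_def, h]
  have hcast : ∀ k < n + 1, (ε k : ℂ) = ((e k : ℤ) : ℂ) := by
    intro k hk
    rcases hε k hk with h | h
    · have : ε k ≠ -1 := by rw [h]; norm_num
      simp [he_def, h]
      norm_num
    · simp [he_def, h]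
  have hsum : ∀ z : ℂ, ∑ k ∈ Finset.range (n + 1), (ε k : ℂ) * z ^ k = eval z (pc n e) := by
    intro z
    rw [eval_pc]
    refine Finset.sum_congr rfl (fun k hk => ?_)
    rw [hcast k (Finset.mem_range.mp hk)]
  have := core n e he a b (fun z hz => by simpa [hsum z] using hab z hz)
  push_cast
  linarith

theorem result (N : ℕ) (hN : 1 ≤ N) (ε : ℕ → ℝ) (hε : ∀ k < N, ε k = 1 ∨ ε k = -1) :
    (∀ a b : ℝ,
      (∀ z : ℂ, ‖z‖ = 1 →
        a ≤ ‖∑ k ∈ Finset.range N, (ε k : ℂ) * z ^ k‖ ^ 2 ∧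
        ‖∑ k ∈ Finset.range N, (ε k : ℂ) * z ^ k‖ ^ 2 ≤ b) →
      (N : ℝ) - 1 ≤ (b - N) * (N - a)) ∧
    (∀ c : ℝ,
      (∀ z : ℂ, ‖z‖ = 1 →
        (1 - c) * Real.sqrt N ≤ ‖∑ k ∈ Finset.range N, (ε k : ℂ) * z ^ k‖ ∧
        ‖∑ k ∈ Finset.range N, (ε k : ℂ) * z ^ k‖ ≤ (1 + c) * Real.sqrt N) →
      Real.sqrt ((N : ℝ) - 1) / (2 * N) ≤ c) := by
  refine ⟨fun a b hab => core' N hN ε hε a b hab, fun c hc => ?_⟩
  have hNpos : (0 : ℝ) < N := by exact_mod_cast hN
  have hN1 : (1 : ℝ) ≤ N := by exact_mod_cast hN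
  have hsN : 0 < Real.sqrt N := Real.sqrt_pos.mpr hNpos
  have hsq : Real.sqrt N ^ 2 = N := Real.sq_sqrt hNpos.le
  have hs1 : Real.sqrt ((N : ℝ) - 1) ^ 2 = N - 1 := Real.sq_sqrt (by linarith)
  have hs1nn : 0 ≤ Real.sqrt ((N : ℝ) - 1) := Real.sqrt_nonneg _
  -- c is nonnegative
  have hc0 : 0 ≤ c := by
    obtain ⟨h1, h2⟩ := hc 1 (by simp)
    have : (1 - c) * Real.sqrt N ≤ (1 + c) * Real.sqrt N := le_trans h1 h2
    nlinarith
  rw [div_le_iff₀ (by positivity)]
  by_cases hc1 : 1 ≤ c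
  · -- trivial range: sqrt (N-1) ≤ N ≤ 2 c N
    have : Real.sqrt ((N : ℝ) - 1) ≤ N := by nlinarith
    nlinarith
  · have hc1' : c < 1 := not_le.mp hc1
    have key := core' N hN ε hε (((1 - c) * Real.sqrt N) ^ 2) (((1 + c) * Real.sqrt N) ^ 2)
      (fun z hz => by
        obtain ⟨h1, h2⟩ := hc z hz
        have hnn : 0 ≤ (1 - c) * Real.sqrt N := by
          apply mul_nonneg <;> linarith
        exact ⟨pow_le_pow_left₀ hnn h1 2, pow_le_pow_left₀ (norm_nonneg _) h2 2⟩)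
    have e1 : ((1 - c) * Real.sqrt N) ^ 2 = (1 - c) ^ 2 * N := by rw [mul_pow, hsq]
    have e2 : ((1 + c) * Real.sqrt N) ^ 2 = (1 + c) ^ 2 * N := by rw [mul_pow, hsq]
    rw [e1, e2] at key
    -- key : N - 1 ≤ ((1+c)^2 N - N) (N - (1-c)^2 N) = N^2 c^2 (4 - c^2)
    have key2 : Real.sqrt ((N : ℝ) - 1) ^ 2 ≤ (c * (2 * N)) ^ 2 := by
      rw [hs1]
      nlinarith [mul_nonneg (mul_nonneg hc0 hc0) (mul_nonneg hNpos.le hNpos.le),
        mul_nonneg (mul_nonneg (mul_nonneg hc0 hc0) (mul_nonneg hc0 hc0))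
          (mul_nonneg hNpos.le hNpos.le)]
    exact le_of_sq_le_sq key2 (by positivity) |> fun h => by simpa using h

end Vale.Agent.Results.P110.FlatnessGap
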